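import Vale.Agent.P362G46.Std

/-!
# P362: the unitary model is a case of the general one
-/

open Matrix

namespace Vale.Agent.P362G

variable {n : ℕ}

section
variable {H : Type} [NormedAddCommGroup H] [InnerProductSpace ℂ H]

/-- Apply an isometry. -/
def uni (U : H →L[ℂ] H) (hU : ∀ ψ, ‖U ψ‖ = ‖ψ‖) (C : Quant H) : Quant H :=
  .op Unit (fun _ => U) (fun ψ => by simp [hU]) fun _ => C

/-- The unitaries and `t` queries, then `C`. -/
def build (U : ℕ → H →L[ℂ] H) (hU : ∀ t ψ, ‖U t ψ‖ = ‖ψ‖) : ℕ → Quant H → Quant H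
  | 0, C => uni (U 0) (hU 0) C
  | t + 1, C => build U hU t (.query (uni (U (t + 1)) (hU (t + 1)) C))

/-- The state after `t` queries. -/
def runH (O : H ≃ₗᵢ[ℂ] H) (U : ℕ → H →L[ℂ] H) (ψ : H) : ℕ → H
  | 0 => U 0 ψ
  | t + 1 => U (t + 1) (O (runH O U ψ t))

theorem build_spec (O : H ≃ₗᵢ[ℂ] H) (U : ℕ → H →L[ℂ] H) (hU : ∀ t ψ, ‖U t ψ‖ = ‖ψ‖) (ψ : H)
    (t : ℕ) : ∀ C : Quant H, (∀ c, (build U hU t C).prob O c ψ = C.prob O c (runH O U ψ t)) ∧
      (build U hU t C).queries O ψ ≤ C.queries O (runH O U ψ t) + t := by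
  induction t with
  | zero => intro C; simp [build, uni, Quant.prob, Quant.queries, runH]
  | succ t ih =>
    intro C
    obtain ⟨h1, h2⟩ := ih (.query (uni (U (t + 1)) (hU (t + 1)) C))
    refine ⟨fun c => (h1 c).trans (by simp [uni, Quant.prob, runH]), h2.trans ?_⟩
    simp only [Quant.queries, uni, runH, ciSup_const, Nat.cast_add, Nat.cast_one]
    split_ifs
    · rw [zero_add]
      exact le_add_left le_self_add
    · rw [add_assoc, add_comm 1]

end

/-- The involution `|i, b, z⟩ ↦ |i, b ⊕ x i, z⟩` of the labels. -/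
def flipE (Z : Type) (x : Fin n → Bool) : Equiv.Perm (Fin n × Bool × Z) :=
  Function.Involutive.toPerm (fun w => (w.1, xor w.2.1 (x w.1), w.2.2)) fun w => by simp

theorem computes_of_std {f : (Fin n → Bool) → Bool} {T : ℕ}
    (h : P362.Stmt.QuantComputes f T) : QuantComputes f T := by
  obtain ⟨m, U, s, out, hU, h⟩ := h
  let W := Fin n × Bool × Fin m
  let L : Matrix W W ℂ → EuclideanSpace ℂ W →L[ℂ] EuclideanSpace ℂ W := fun M =>
    LinearMap.toContinuousLinearMap (toEuclideanLin M)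
  have hL : ∀ M v, (L M v).ofLp = M *ᵥ v.ofLp := fun _ _ => rfl
  have hiso : ∀ t ψ, ‖L (U t) ψ‖ = ‖ψ‖ := fun t ψ => by
    have h1 : inner ℂ (L (U t) ψ) (L (U t) ψ) = inner ℂ ψ ψ := by
      change inner ℂ (toEuclideanLin (U t) ψ) (toEuclideanLin (U t) ψ) = _
      rw [← LinearMap.adjoint_inner_right, ← toEuclideanLin_conjTranspose_eq_adjoint,
        ← LinearMap.comp_apply, ← toLpLin_mul_same, ← star_eq_conjTranspose,
        mem_unitaryGroup_iff'.mp (hU t)]
      simp
    rw [inner_self_eq_norm_sq_to_K, inner_self_eq_norm_sq_to_K] at h1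
    have h3 : ‖L (U t) ψ‖ ^ 2 = ‖ψ‖ ^ 2 := by exact_mod_cast h1
    exact (pow_left_inj₀ (norm_nonneg _) (norm_nonneg _) two_ne_zero).mp h3
  let K : Bool → EuclideanSpace ℂ W →L[ℂ] EuclideanSpace ℂ W := fun c =>
    L (diagonal fun w => if out w = c then 1 else 0)
  have hK : ∀ c v, ‖K c v‖ ^ 2 = ∑ w, if out w = c then ‖v.ofLp w‖ ^ 2 else 0 := fun c v => by
    rw [EuclideanSpace.norm_sq_eq]
    refine Finset.sum_congr rfl fun w _ => ?_
    rw [hL, mulVec_diagonal]
    split_ifs <;> simp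
  have hKs : ∀ v, HasSum (fun c => ‖K c v‖ ^ 2) (‖v‖ ^ 2) := fun v => by
    convert hasSum_fintype fun c => ‖K c v‖ ^ 2 using 1
    rw [Fintype.sum_bool, hK, hK, ← Finset.sum_add_distrib, EuclideanSpace.norm_sq_eq]
    refine Finset.sum_congr rfl fun w _ => ?_
    cases out w <;> simp
  let O : (Fin n → Bool) → EuclideanSpace ℂ W ≃ₗᵢ[ℂ] EuclideanSpace ℂ W := fun x =>
    LinearIsometryEquiv.piLpCongrLeft 2 ℂ ℂ (flipE (Fin m) x)
  have hO : ∀ x v, (O x v).ofLp = P362.Stmt.oracle m x *ᵥ v.ofLp := fun x v => by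
    ext w
    rw [oracle_mulVec]
    rfl
  have hrun : ∀ x t, (runH (O x) (fun t => L (U t)) (EuclideanSpace.single s 1) t).ofLp =
      P362.Stmt.run (P362.Stmt.oracle m x) U s t := fun x t => by
    induction t with
    | zero => rfl
    | succ t ih => rw [runH, hL, hO, ih]; rfl
  refine ⟨Fin m, EuclideanSpace ℂ W, inferInstance, inferInstance,
    (EuclideanSpace.basisFun W ℂ).toHilbertBasis, O,
    build (fun t => L (U t)) hiso T (.op Bool K hKs fun c => .stop c),
    EuclideanSpace.single s 1, fun x i b z => ?_, by simp, fun x => ?_⟩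
  · rw [OrthonormalBasis.coe_toHilbertBasis, EuclideanSpace.basisFun_apply,
      EuclideanSpace.basisFun_apply]
    exact LinearIsometryEquiv.piLpCongrLeft_single (flipE (Fin m) x) (i, b, z) 1
  · obtain ⟨h1, h2⟩ := build_spec (O x) (fun t => L (U t)) hiso (EuclideanSpace.single s 1) T
      (.op Bool K hKs fun c => .stop c)
    refine ⟨h2.trans (by simp [Quant.queries]), ?_⟩
    rw [h1]
    refine (h x).trans (le_of_eq ?_)
    rw [← hrun, ← hK]
    cases f x <;> simp [Quant.prob, tsum_fintype]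

theorem quant_iff {f : (Fin n → Bool) → Bool} {T : ℕ} (hn : 1 ≤ n) :
    QuantComputes f T ↔ P362.Stmt.QuantComputes f T :=
  ⟨fun h => (feas_of_computes h).elim fun _ ha => std_of_feas hn ha.1 ha.2, computes_of_std⟩

end Vale.Agent.P362G
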