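import Mathlib.Analysis.InnerProductSpace.l2Space
import Mathlib.Analysis.SpecialFunctions.Pow.Real
import Mathlib.MeasureTheory.Measure.Typeclasses.Probability

/-!
# P362: query algorithms with unrestricted computation between the queries
-/

open MeasureTheory

namespace Vale.Agent.P362G

/-- A deterministic query algorithm for `n` bits: stop with an output bit, or query the bit `i`
and go on according to the answer. -/
inductive Det (n : ℕ) : Type
  | stop (b : Bool) : Det n
  | query (i : Fin n) (next : Bool → Det n) : Det n

/-- The output on the input `x`. -/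
def Det.out {n : ℕ} (x : Fin n → Bool) : Det n → Bool
  | .stop b => b
  | .query i next => (next (x i)).out x

/-- The number of queries made on the input `x`. -/
def Det.cost {n : ℕ} (x : Fin n → Bool) : Det n → ℕ
  | .stop _ => 0
  | .query i next => (next (x i)).cost x + 1

/-- Some deterministic algorithm outputs `f x` with at most `T` queries, on every input `x`. -/
def DetComputes {n : ℕ} (f : (Fin n → Bool) → Bool) (T : ℕ) : Prop :=
  ∃ A : Det n, ∀ x, A.cost x ≤ T ∧ A.out x = f x

/-- Some randomized algorithm (any probability space of seeds `ω`, a deterministic algorithm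
`A ω` for each seed) makes at most `T` queries for all inputs and seeds and outputs `f x` with
probability at least `2/3` on every input `x`. -/
def RandComputes {n : ℕ} (f : (Fin n → Bool) → Bool) (T : ℕ) : Prop :=
  ∃ (Ω : Type) (_ : MeasurableSpace Ω) (P : Measure Ω) (A : Ω → Det n), IsProbabilityMeasure P ∧
    ∀ x, (∀ ω, (A ω).cost x ≤ T) ∧ MeasurableSet {ω | (A ω).out x = f x} ∧
      2 / 3 ≤ P {ω | (A ω).out x = f x}

/-- A quantum query algorithm on the state space `H`: stop with an output bit; or apply the
query; or apply any quantum operation (Kraus operators `K j` with `∑ K j* K j = 1`, any set `J`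
of outcomes; a unitary is the case of one outcome) and go on according to the outcome `j`. -/
inductive Quant (H : Type) [NormedAddCommGroup H] [InnerProductSpace ℂ H] : Type 1
  | stop (b : Bool) : Quant H
  | query (next : Quant H) : Quant H
  | op (J : Type) (K : J → H →L[ℂ] H) (hK : ∀ ψ, HasSum (fun j => ‖K j ψ‖ ^ 2) (‖ψ‖ ^ 2))
      (next : J → Quant H) : Quant H

variable {H : Type} [NormedAddCommGroup H] [InnerProductSpace ℂ H]

/-- The probability of the output `c` from the state `ψ` if the query is `O` (Born rule: the
outcome `j` leaves the unnormalised state `K j ψ`, of squared norm its probability). -/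
noncomputable def Quant.prob (O : H ≃ₗᵢ[ℂ] H) (c : Bool) : Quant H → H → ℝ
  | .stop b, ψ => if b = c then ‖ψ‖ ^ 2 else 0
  | .query next, ψ => next.prob O c (O ψ)
  | .op _ K _ next, ψ => ∑' j, (next j).prob O c (K j ψ)

open Classical in
/-- The worst-case number of queries from the state `ψ` if the query is `O`: the supremum over
the runs of nonzero probability. -/
noncomputable def Quant.queries (O : H ≃ₗᵢ[ℂ] H) : Quant H → H → ℕ∞
  | .stop _, _ => 0
  | .query next, ψ => if ψ = 0 then 0 else next.queries O (O ψ) + 1
  | .op _ K _ next, ψ => ⨆ j, (next j).queries O (K j ψ)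

/-- Some quantum algorithm, on a Hilbert space with an orthonormal basis `|i, b, z⟩` (any set `Z`
of workspace labels) and the unitaries `O x |i, b, z⟩ = |i, b ⊕ x i, z⟩`, started in a unit
vector, makes at most `T` queries and outputs `f x` with probability at least `2/3`, on every
input `x`. -/
def QuantComputes {n : ℕ} (f : (Fin n → Bool) → Bool) (T : ℕ) : Prop :=
  ∃ (Z H : Type) (_ : NormedAddCommGroup H) (_ : InnerProductSpace ℂ H)
    (e : HilbertBasis (Fin n × Bool × Z) ℂ H) (O : (Fin n → Bool) → H ≃ₗᵢ[ℂ] H)
    (A : Quant H) (ψ : H), (∀ x i b z, O x (e (i, b, z)) = e (i, xor b (x i), z)) ∧ ‖ψ‖ = 1 ∧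
      ∀ x, A.queries (O x) ψ ≤ T ∧ 2 / 3 ≤ A.prob (O x) (f x) ψ

/-- Deterministic query complexity. -/
noncomputable def D {n : ℕ} (f : (Fin n → Bool) → Bool) : ℕ := sInf {T | DetComputes f T}

/-- Randomized query complexity. -/
noncomputable def R {n : ℕ} (f : (Fin n → Bool) → Bool) : ℕ := sInf {T | RandComputes f T}

/-- Quantum query complexity. -/
noncomputable def Q {n : ℕ} (f : (Fin n → Bool) → Bool) : ℕ := sInf {T | QuantComputes f T}

/-- The exponents `α ≥ 0` with `R(f) ≤ C (1 + Q(f))^α` for some `C`, all `n ≥ 1` and all `f`. -/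
def exponents : Set ℝ :=
  {α | 0 ≤ α ∧ ∃ C : ℝ, ∀ n : ℕ, 1 ≤ n → ∀ f : (Fin n → Bool) → Bool,
    (R f : ℝ) ≤ C * (1 + (Q f : ℝ)) ^ α}

/-- The optimal exponent. -/
noncomputable def alphaTot : ℝ := sInf exponents

end Vale.Agent.P362G
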