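import Mathlib.Analysis.Matrix.Order
import Mathlib.Analysis.InnerProductSpace.GramMatrix
import Mathlib.Analysis.InnerProductSpace.PiL2

/-!
# P362: the Gram matrices reachable with `T` queries
-/

open Matrix
open scoped ComplexOrder MatrixOrder

namespace Vale.Agent.P362G

variable {n : ℕ}

/-- Square matrices indexed by the inputs. -/
abbrev Mat (n : ℕ) : Type := Matrix (Fin n → Bool) (Fin n → Bool) ℂ

/-- The sign of the bit. -/
def sg (b : Bool) : ℂ := if b then -1 else 1

/-- The effect of a phase query to the bit `i` on a Gram matrix. -/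
def tw (i : Fin n) (M : Mat n) : Mat n := of fun x y => sg (x i) * sg (y i) * M x y

/-- From the Gram matrix `G`, `T` queries can give the acceptance probabilities `a`. -/
def Feas : ℕ → Mat n → ((Fin n → Bool) → ℝ) → Prop
  | 0, G, a => ∃ A R : Mat n, A.PosSemidef ∧ R.PosSemidef ∧ G = A + R ∧ ∀ x, A x x = a x
  | T + 1, G, a => ∃ (P : Mat n) (M : Fin n → Mat n), P.PosSemidef ∧ (∀ i, (M i).PosSemidef) ∧
      G = P + ∑ i, M i ∧ Feas T (P + ∑ i, tw i (M i)) a

theorem Feas.psd {T : ℕ} {G : Mat n} {a : (Fin n → Bool) → ℝ} (h : Feas T G a) :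
    G.PosSemidef := by
  cases T with
  | zero =>
    obtain ⟨A, R, hA, hR, rfl, -⟩ := h
    exact hA.add hR
  | succ T =>
    obtain ⟨P, M, hP, hM, rfl, -⟩ := h
    exact hP.add (posSemidef_sum _ fun i _ => hM i)

theorem tw_zero (i : Fin n) : tw i (0 : Mat n) = 0 := by
  ext x y; simp [tw]

theorem Feas.succ {T : ℕ} {G : Mat n} {a : (Fin n → Bool) → ℝ} (h : Feas T G a) :
    Feas (T + 1) G a :=
  ⟨G, fun _ => 0, h.psd, fun _ => PosSemidef.zero, by simp, by simpa [tw_zero] using h⟩

theorem Feas.of_zero (T : ℕ) {G : Mat n} {a : (Fin n → Bool) → ℝ} (h : Feas 0 G a) :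
    Feas T G a := by
  induction T with
  | zero => exact h
  | succ T ih => exact ih.succ

theorem feas_zero (T : ℕ) : Feas T (0 : Mat n) (fun _ => 0) :=
  Feas.of_zero T ⟨0, 0, PosSemidef.zero, PosSemidef.zero, by simp, by simp⟩

theorem norm_entry_le {A : Mat n} (hA : A.PosSemidef) (x y : Fin n → Bool) :
    ‖A x y‖ ≤ (A x x).re + (A y y).re := by
  obtain ⟨B, rfl⟩ := CStarAlgebra.nonneg_iff_eq_star_mul_self.mp hA.nonneg
  simp only [star_eq_conjTranspose, mul_apply, conjTranspose_apply, Complex.re_sum]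
  rw [← Finset.sum_add_distrib]
  refine (norm_sum_le _ _).trans (Finset.sum_le_sum fun k _ => ?_)
  have h : ∀ z : ℂ, (star z * z).re = ‖z‖ ^ 2 := fun z => by
    rw [Complex.star_def, Complex.conj_mul', ← Complex.ofReal_pow, Complex.ofReal_re]
  rw [h, h, norm_mul, norm_star]
  nlinarith [norm_nonneg (B k x), norm_nonneg (B k y), sq_nonneg (‖B k x‖ - ‖B k y‖)]

theorem diag_re_nonneg {A : Mat n} (hA : A.PosSemidef) (x : Fin n → Bool) : 0 ≤ (A x x).re :=
  (Complex.nonneg_iff.mp (hA.diag_nonneg (i := x))).1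

theorem summable_of_le {J : Type} {A R : J → Mat n} (hA : ∀ j, (A j).PosSemidef)
    (hR : ∀ j, (R j).PosSemidef) (h : Summable fun j => A j + R j) : Summable A := by
  have hd : ∀ x, Summable fun j => (A j x x).re := fun x => by
    have h1 : Summable fun j => (A j + R j) x x := Pi.summable.mp (Pi.summable.mp h x) x
    refine Summable.of_nonneg_of_le (fun j => diag_re_nonneg (hA j) x) (fun j => ?_)
      (Complex.reCLM.summable h1)
    have := diag_re_nonneg (hR j) x
    simp only [Complex.reCLM_apply, Matrix.add_apply, Complex.add_re]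
    linarith
  refine Pi.summable.mpr fun x => Pi.summable.mpr fun y => ?_
  exact Summable.of_norm_bounded ((hd x).add (hd y)) fun j => norm_entry_le (hA j) x y

theorem psd_of_hasSum {J : Type} {A : J → Mat n} {S : Mat n} (hA : ∀ j, (A j).PosSemidef)
    (h : HasSum A S) : S.PosSemidef := by
  have he : ∀ x y, HasSum (fun j => A j x y) (S x y) := fun x y =>
    Pi.hasSum.mp (Pi.hasSum.mp h x) y
  refine .of_dotProduct_mulVec_nonneg ?_ fun v => ?_
  · ext x y
    have h1 := (he y x).star
    simp only [← conjTranspose_apply, fun j => (hA j).1.eq] at h1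
    exact h1.unique (he x y)
  · have h1 : HasSum (fun j => star v ⬝ᵥ (A j *ᵥ v)) (star v ⬝ᵥ (S *ᵥ v)) :=
      hasSum_sum fun x _ => (hasSum_sum fun y _ => (he x y).mul_right (v y)).mul_left (star v x)
    exact h1.nonneg fun j => (hA j).dotProduct_mulVec_nonneg v

theorem hasSum_tw {J : Type} {A : J → Mat n} {S : Mat n} (i : Fin n) (h : HasSum A S) :
    HasSum (fun j => tw i (A j)) (tw i S) :=
  Pi.hasSum.mpr fun x => Pi.hasSum.mpr fun y =>
    (Pi.hasSum.mp (Pi.hasSum.mp h x) y).mul_left _

theorem feas_hasSum {J : Type} (T : ℕ) : ∀ {G : J → Mat n} {a : J → (Fin n → Bool) → ℝ}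
    {S : Mat n}, (∀ j, Feas T (G j) (a j)) → HasSum G S →
    Feas T S (fun x => ∑' j, a j x) := by
  induction T with
  | zero =>
    intro G a S h hS
    choose A R hA hR hG ha using h
    obtain rfl : G = fun j => A j + R j := funext hG
    have sA := summable_of_le hA hR hS.summable
    have sR := summable_of_le hR hA (by simpa [add_comm] using hS.summable)
    refine ⟨∑' j, A j, ∑' j, R j, psd_of_hasSum hA sA.hasSum, psd_of_hasSum hR sR.hasSum,
      hS.unique (sA.hasSum.add sR.hasSum), fun x => ?_⟩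
    have h1 := Pi.hasSum.mp (Pi.hasSum.mp sA.hasSum x) x
    rw [Complex.ofReal_tsum, ← h1.tsum_eq]
    exact tsum_congr fun j => ha j x
  | succ T ih =>
    intro G a S h hS
    choose P M hP hM hG ha using h
    obtain rfl : G = fun j => P j + ∑ i, M j i := funext hG
    have hMs : ∀ j, (∑ i, M j i).PosSemidef := fun j => posSemidef_sum _ fun i _ => hM j i
    have sP := summable_of_le hP hMs hS.summable
    have sM : ∀ i, Summable fun j => M j i := fun i => by
      refine summable_of_le (R := fun j => P j + ∑ k ∈ Finset.univ.erase i, M j k)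
        (fun j => hM j i) (fun j => (hP j).add (posSemidef_sum _ fun k _ => hM j k)) ?_
      refine hS.summable.congr fun j => ?_
      rw [← Finset.add_sum_erase _ _ (Finset.mem_univ i)]
      abel
    refine ⟨∑' j, P j, fun i => ∑' j, M j i, psd_of_hasSum hP sP.hasSum,
      fun i => psd_of_hasSum (fun j => hM j i) (sM i).hasSum,
      hS.unique (sP.hasSum.add (hasSum_sum fun i _ => (sM i).hasSum)), ?_⟩
    exact ih ha (sP.hasSum.add (hasSum_sum fun i _ => hasSum_tw i (sM i).hasSum))

theorem feas_sum {J : Type} [Fintype J] (T : ℕ) {G : J → Mat n} {a : J → (Fin n → Bool) → ℝ}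
    (h : ∀ j, Feas T (G j) (a j)) : Feas T (∑ j, G j) (fun x => ∑ j, a j x) := by
  simpa only [tsum_fintype] using feas_hasSum T h (hasSum_fintype G)

/-- Two families of vectors with the same Gram matrix differ by a unitary. -/
theorem exists_unitary {W X : Type} [Fintype W] [DecidableEq W] [Fintype X]
    (V V' : Matrix W X ℂ) (h : Vᴴ * V = V'ᴴ * V') :
    ∃ U ∈ unitaryGroup W ℂ, U * V = V' := by
  classical
  let L := toEuclideanLin V
  let L' := toEuclideanLin V'
  have hn : ∀ v, ‖L v‖ = ‖L' v‖ := fun v => by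
    have h1 : ∀ M : Matrix W X ℂ, inner ℂ (toEuclideanLin M v) (toEuclideanLin M v) =
        inner ℂ v (toEuclideanLin (Mᴴ * M) v) := fun M => by
      rw [← LinearMap.adjoint_inner_right, ← toEuclideanLin_conjTranspose_eq_adjoint,
        toLpLin_mul_same]
      rfl
    have h2 : inner ℂ (L v) (L v) = inner ℂ (L' v) (L' v) := by rw [h1, h1, h]
    rw [inner_self_eq_norm_sq_to_K, inner_self_eq_norm_sq_to_K] at h2
    have h3 : ‖L v‖ ^ 2 = ‖L' v‖ ^ 2 := by exact_mod_cast h2
    exact (pow_left_inj₀ (norm_nonneg _) (norm_nonneg _) two_ne_zero).mp h3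
  have hk : LinearMap.ker L ≤ LinearMap.ker L' := fun v hv => by
    rw [LinearMap.mem_ker] at hv ⊢
    rw [← norm_eq_zero, ← hn, hv, norm_zero]
  let F := ((LinearMap.ker L).liftQ L' hk).comp L.quotKerEquivRange.symm.toLinearMap
  have hF : ∀ v, F ⟨L v, LinearMap.mem_range_self L v⟩ = L' v := fun v => by
    simp [F, LinearMap.quotKerEquivRange_symm_apply_image]
  let I : LinearMap.range L →ₗᵢ[ℂ] EuclideanSpace ℂ W :=
    { toLinearMap := F
      norm_map' := by
        rintro ⟨_, v, rfl⟩
        rw [hF v, ← hn]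
        rfl }
  have hI : ∀ v, I.extend (L v) = L' v := fun v =>
    (I.extend_apply ⟨L v, LinearMap.mem_range_self L v⟩).trans (hF v)
  refine ⟨toEuclideanLin.symm I.extend.toLinearMap, ?_, ?_⟩
  · rw [mem_unitaryGroup_iff', star_eq_conjTranspose]
    apply toEuclideanLin.injective
    rw [toLpLin_mul_same, toEuclideanLin_conjTranspose_eq_adjoint, LinearEquiv.apply_symm_apply]
    ext1 v
    refine ext_inner_left ℂ fun w => ?_
    simp
  · apply toEuclideanLin.injective
    rw [toLpLin_mul_same, LinearEquiv.apply_symm_apply]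
    exact LinearMap.ext hI

end Vale.Agent.P362G
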