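import Vale.Agent.P362G46.Defs
import Vale.Agent.P362G46.Feas

/-!
# P362: a general quantum algorithm gives feasible Gram matrices
-/

open Matrix
open scoped ComplexOrder

namespace Vale.Agent.P362G

variable {n : ℕ} {H : Type} [NormedAddCommGroup H] [InnerProductSpace ℂ H]

theorem prob_spec (O : H ≃ₗᵢ[ℂ] H) (A : Quant H) : ∀ ψ : H, (∀ c, 0 ≤ A.prob O c ψ) ∧
    A.prob O true ψ + A.prob O false ψ = ‖ψ‖ ^ 2 := by
  induction A with
  | stop b =>
    intro ψ
    refine ⟨fun c => ?_, ?_⟩
    · simp only [Quant.prob]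
      split_ifs <;> positivity
    · cases b <;> simp [Quant.prob]
  | query A ih =>
    intro ψ
    refine ⟨fun c => (ih _).1 c, ?_⟩
    simp only [Quant.prob]
    rw [(ih _).2, O.norm_map]
  | op J K hK next ih =>
    intro ψ
    refine ⟨fun c => tsum_nonneg fun j => (ih j _).1 c, ?_⟩
    have hs : ∀ c, Summable fun j => (next j).prob O c (K j ψ) := fun c => by
      refine Summable.of_nonneg_of_le (fun j => (ih j _).1 c) (fun j => ?_) (hK ψ).summable
      have h1 := (ih j (K j ψ)).1 true
      have h2 := (ih j (K j ψ)).1 false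
      have h3 := (ih j (K j ψ)).2
      cases c <;> linarith
    simp only [Quant.prob]
    rw [← (hs true).tsum_add (hs false), ← (hK ψ).tsum_eq]
    exact tsum_congr fun j => (ih j _).2

theorem prob_zero (O : H ≃ₗᵢ[ℂ] H) (A : Quant H) (c : Bool) : A.prob O c 0 = 0 := by
  have h1 := (prob_spec O A 0).1 true
  have h2 := (prob_spec O A 0).1 false
  have h3 := (prob_spec O A 0).2
  rw [norm_zero] at h3
  cases c <;> nlinarith

theorem cost_zero (O : H ≃ₗᵢ[ℂ] H) (A : Quant H) : A.queries O 0 = 0 := by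
  induction A with
  | stop b => rfl
  | query A ih => simp [Quant.queries]
  | op J K hK next ih => simp [Quant.queries, ih]

theorem hasSum_inner {J : Type} {K : J → H →L[ℂ] H}
    (hK : ∀ ψ, HasSum (fun j => ‖K j ψ‖ ^ 2) (‖ψ‖ ^ 2)) (u v : H) :
    HasSum (fun j => inner ℂ (K j u) (K j v)) (inner ℂ u v) := by
  have h : ∀ ψ, HasSum (fun j => ((‖K j ψ‖ : ℂ)) ^ 2) ((‖ψ‖ : ℂ) ^ 2) := fun ψ => by
    simpa using Complex.hasSum_ofReal.mpr (hK ψ)
  simp only [inner_eq_sum_norm_sq_div_four]
  have := (((h (u + v)).sub (h (u - v))).add (((h (u - Complex.I • v)).sub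
    (h (u + Complex.I • v))).mul_right Complex.I)).div_const 4
  simpa using this

theorem basis_ext {W : Type} (e : HilbertBasis W ℂ H) {f g : H →L[ℂ] H}
    (h : ∀ w, f (e w) = g (e w)) (ψ : H) : f ψ = g ψ := by
  have : f = g := ContinuousLinearMap.ext_on
    (Submodule.dense_iff_topologicalClosure_eq_top.mpr e.dense_span) (by
      rintro _ ⟨w, rfl⟩
      exact h w)
  rw [this]

/-- The unitary as a bounded operator. -/
noncomputable def cl (U : H ≃ₗᵢ[ℂ] H) : H →L[ℂ] H := U.toContinuousLinearEquiv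

theorem cl_apply (U : H ≃ₗᵢ[ℂ] H) (ψ : H) : cl U ψ = U ψ := rfl

/-- The projection on the states with query register `i` and answer register `|-⟩`. -/
noncomputable def nn (O : (Fin n → Bool) → H ≃ₗᵢ[ℂ] H) (i : Fin n) : H →L[ℂ] H :=
  (1 / 2 : ℂ) • (1 - cl (O fun k => decide (k = i)))

section
variable {Z : Type} {e : HilbertBasis (Fin n × Bool × Z) ℂ H}
  {O : (Fin n → Bool) → H ≃ₗᵢ[ℂ] H}
  (hO : ∀ x i b z, O x (e (i, b, z)) = e (i, xor b (x i), z))
include hO

theorem nn_basis (i k : Fin n) (b : Bool) (z : Z) : nn O i (e (k, b, z)) =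
    if k = i then (1 / 2 : ℂ) • (e (k, b, z) - e (k, !b, z)) else 0 := by
  by_cases h : k = i <;> simp [nn, cl_apply, hO, h]

theorem O_nn (x : Fin n → Bool) (i : Fin n) (ψ : H) : O x (nn O i ψ) = sg (x i) • nn O i ψ := by
  refine basis_ext e (f := (cl (O x)).comp (nn O i)) (g := sg (x i) • nn O i) ?_ ψ
  rintro ⟨k, b, z⟩
  simp only [ContinuousLinearMap.comp_apply, _root_.smul_apply, cl_apply,
    nn_basis hO]
  split_ifs with h
  · subst h
    rw [map_smul, map_sub, hO, hO]
    cases x k <;> cases b <;> simp [sg, ← smul_neg]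
  · simp

theorem O_eq (x : Fin n → Bool) (ψ : H) :
    O x ψ = (ψ - ∑ i, nn O i ψ) + ∑ i, sg (x i) • nn O i ψ := by
  have := basis_ext e (f := cl (O x)) (g := (1 - ∑ i, nn O i) + ∑ i, sg (x i) • nn O i) ?_ ψ
  · simpa [cl_apply] using this
  rintro ⟨k, b, z⟩
  simp only [cl_apply, _root_.add_apply, _root_.sub_apply,
    _root_.sum_apply, _root_.smul_apply, nn_basis hO, hO,
    one_apply_eq_self, smul_ite, smul_zero, Finset.sum_ite_eq, Finset.mem_univ,
    if_true]
  cases x k
  · simp [sg]
  · simp only [sg, if_true, Bool.xor_true]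
    module

theorem O_rest (x : Fin n → Bool) (ψ : H) : O x (ψ - ∑ i, nn O i ψ) = ψ - ∑ i, nn O i ψ := by
  rw [map_sub, map_sum, O_eq hO x ψ]
  simp [O_nn hO]

theorem inner_O (x y : Fin n → Bool) (u v : H) : inner ℂ (O x u) (O y v) =
    inner ℂ (u - ∑ i, nn O i u) (v - ∑ i, nn O i v) +
      ∑ i, sg (x i) * sg (y i) * inner ℂ (nn O i u) (nn O i v) := by
  have key : ∀ (U : H ≃ₗᵢ[ℂ] H) (a b : H), U a = a → U b = -b → inner ℂ a b = 0 := by
    intro U a b ha hb
    have := U.inner_map_map a b
    rw [ha, hb, inner_neg_right] at this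
    linear_combination (-1 / 2 : ℂ) * this
  have hm : ∀ i (w : H), O (fun k => decide (k = i)) (nn O i w) = -nn O i w := fun i w => by
    simp [O_nn hO, sg]
  have h1 : ∀ i (a b : H), inner ℂ (a - ∑ k, nn O k a) (nn O i b) = 0 := fun i a b =>
    key _ _ _ (O_rest hO _ a) (hm i b)
  have h2 : ∀ i (a b : H), inner ℂ (nn O i b) (a - ∑ k, nn O k a) = 0 := fun i a b => by
    rw [← inner_conj_symm, h1, map_zero]
  have h3 : ∀ i k, i ≠ k → inner ℂ (nn O i u) (nn O k v) = 0 := fun i k h =>
    key _ _ _ (by simp [O_nn hO, sg, h]) (hm k v)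
  have hs : ∀ b, (starRingEnd ℂ) (sg b) = sg b := fun b => by cases b <;> simp [sg]
  rw [O_eq hO x u, O_eq hO y v, inner_add_left, inner_add_right, inner_add_right]
  simp only [inner_sum, sum_inner, inner_smul_left, inner_smul_right, h1, h2, hs, mul_zero,
    Finset.sum_const_zero, add_zero, zero_add, Finset.mul_sum]
  congr 1
  refine Finset.sum_congr rfl fun i _ => ?_
  rw [Finset.sum_eq_single i (fun k _ hk => by simp [h3 k i hk]) (by simp)]
  ring

theorem feas_of_quant (A : Quant H) : ∀ (T : ℕ) (ψ : (Fin n → Bool) → H),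
    (∀ x, A.queries (O x) (ψ x) ≤ T) →
      Feas T (gram ℂ ψ) (fun x => A.prob (O x) true (ψ x)) := by
  induction A with
  | stop b =>
    intro T ψ _
    refine Feas.of_zero T ?_
    cases b
    · exact ⟨0, gram ℂ ψ, PosSemidef.zero, posSemidef_gram ℂ ψ, by simp, by simp [Quant.prob]⟩
    · refine ⟨gram ℂ ψ, 0, posSemidef_gram ℂ ψ, PosSemidef.zero, by simp, fun x => ?_⟩
      simp [Quant.prob, inner_self_eq_norm_sq_to_K]
  | query A ih =>
    intro T ψ h
    cases T with
    | zero =>
      obtain rfl : ψ = 0 := funext fun x => by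
        by_contra hx
        have := h x
        simp [Quant.queries, show ψ x ≠ 0 from hx] at this
      simpa [prob_zero] using feas_zero (n := n) 0
    | succ T =>
      have hc : ∀ x, A.queries (O x) (O x (ψ x)) ≤ T := fun x => by
        by_cases hx : ψ x = 0
        · simp [hx, cost_zero]
        · have := h x
          simp only [Quant.queries, hx, if_false, Nat.cast_add, Nat.cast_one] at this
          exact (ENat.add_le_add_iff_right (by simp)).mp this
      refine ⟨gram ℂ fun x => ψ x - ∑ i, nn O i (ψ x), fun i => gram ℂ fun x => nn O i (ψ x),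
        posSemidef_gram ℂ _, fun i => posSemidef_gram ℂ _, ?_, ?_⟩
      · ext x y
        have := inner_O hO (fun _ => false) (fun _ => false) (ψ x) (ψ y)
        rw [LinearIsometryEquiv.inner_map_map] at this
        simpa [sg, Matrix.sum_apply] using this
      · have hg : (gram ℂ fun x => ψ x - ∑ i, nn O i (ψ x)) +
            ∑ i, tw i (gram ℂ fun x => nn O i (ψ x)) = gram ℂ fun x => O x (ψ x) := by
          ext x y
          simp [inner_O hO, Matrix.sum_apply, tw]
        rw [hg]
        exact ih T (fun x => O x (ψ x)) hc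
  | op J K hK next ih =>
    intro T ψ h
    refine feas_hasSum T (G := fun j => gram ℂ fun x => K j (ψ x))
      (fun j => ih j T _ fun x => le_trans ?_ (h x)) ?_
    · exact le_iSup (fun j => (next j).queries (O x) (K j (ψ x))) j
    · exact Pi.hasSum.mpr fun x => Pi.hasSum.mpr fun y => hasSum_inner hK (ψ x) (ψ y)

end

/-- The all-ones matrix. -/
def ones (n : ℕ) : Mat n := of fun _ _ => 1

/-- The acceptance probabilities `a` are good for `f`. -/
def Good (f : (Fin n → Bool) → Bool) (a : (Fin n → Bool) → ℝ) : Prop :=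
  ∀ x, 2 / 3 ≤ if f x then a x else 1 - a x

theorem feas_of_computes {f : (Fin n → Bool) → Bool} {T : ℕ} (h : QuantComputes f T) :
    ∃ a, Feas T (ones n) a ∧ Good f a := by
  obtain ⟨Z, H, _, _, e, O, A, ψ, hO, hψ, h⟩ := h
  refine ⟨fun x => A.prob (O x) true ψ, ?_, fun x => ?_⟩
  · convert feas_of_quant hO A T (fun _ => ψ) fun x => (h x).1 using 1
    ext x y
    simp [ones, inner_self_eq_norm_sq_to_K, hψ]
  · have h1 := (h x).2
    have h2 := (prob_spec (O x) A ψ).2
    rw [hψ] at h2
    cases hf : f x <;> rw [hf] at h1 <;> simp <;> linarith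

end Vale.Agent.P362G
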