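import Vale.Agent.P362G46.Rand
import Vale.Agent.P362.H32.Final

/-!
# P362: the exponent in the general model
-/

namespace Vale.Agent.P362G

variable {n : ℕ}

theorem exu_oracle {Z H : Type} [NormedAddCommGroup H] [InnerProductSpace ℂ H]
    (e : HilbertBasis (Fin n × Bool × Z) ℂ H) (x : Fin n → Bool) :
    ∃! O : H ≃ₗᵢ[ℂ] H, ∀ i b z, O (e (i, b, z)) = e (i, xor b (x i), z) := by
  classical
  have : CompleteSpace H := e.repr.toIsometryEquiv.completeSpace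
  let e' : HilbertBasis (Fin n × Bool × Z) ℂ H :=
    HilbertBasis.mk (e.orthonormal.comp _ (flipE Z x).injective) (by
      rw [(flipE Z x).surjective.range_comp, e.dense_span])
  refine ⟨e.repr.trans e'.repr.symm, fun i b z => ?_, fun O hO => ?_⟩
  · rw [LinearIsometryEquiv.trans_apply, e.repr_self, e'.repr_symm_single, HilbertBasis.coe_mk]
    rfl
  · ext ψ
    refine basis_ext e (f := cl O) (g := cl (e.repr.trans e'.repr.symm)) ?_ ψ
    rintro ⟨i, b, z⟩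
    rw [cl_apply, cl_apply, hO, LinearIsometryEquiv.trans_apply, e.repr_self,
      e'.repr_symm_single, HilbertBasis.coe_mk]
    rfl

theorem R_eq (f : (Fin n → Bool) → Bool) : R f = P362.R f := by
  rw [← P362.Stmt.R_eq, R, P362.Stmt.R]
  simp only [rand_iff]

theorem Q_eq (hn : 1 ≤ n) (f : (Fin n → Bool) → Bool) : Q f = P362.Q f := by
  rw [← P362.Stmt.Q_eq, Q, P362.Stmt.Q]
  simp only [quant_iff hn]

theorem minima (hn : 1 ≤ n) (f : (Fin n → Bool) → Bool) :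
    IsLeast {T | DetComputes f T} (D f) ∧ IsLeast {T | RandComputes f T} (R f) ∧
      IsLeast {T | QuantComputes f T} (Q f) ∧ Q f ≤ R f ∧ R f ≤ D f ∧ D f ≤ n := by
  have hD : DetComputes f (D f) := Nat.sInf_mem (s := {T | DetComputes f T}) ⟨n, det_n f⟩
  have hR : RandComputes f (R f) :=
    Nat.sInf_mem (s := {T | RandComputes f T}) ⟨_, rand_of_det hD⟩
  have hQ : QuantComputes f (Q f) :=
    Nat.sInf_mem (s := {T | QuantComputes f T}) ⟨_, quant_of_rand hn hR⟩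
  exact ⟨⟨hD, fun _ h => Nat.sInf_le h⟩, ⟨hR, fun _ h => Nat.sInf_le h⟩,
    ⟨hQ, fun _ h => Nat.sInf_le h⟩, Nat.sInf_le (quant_of_rand hn hR),
    Nat.sInf_le (rand_of_det hD), Nat.sInf_le (det_n f)⟩

theorem exponents_eq : exponents = Set.Ici 4 := by
  have key : ∀ α : ℝ, (∃ C : ℝ, ∀ n : ℕ, 1 ≤ n → ∀ f : (Fin n → Bool) → Bool,
      (R f : ℝ) ≤ C * (1 + (Q f : ℝ)) ^ α) ↔ P362.PolyBound α := fun α =>
    exists_congr fun C => forall_congr' fun n => forall_congr' fun hn => forall_congr' fun f => by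
      rw [R_eq, Q_eq hn]
  ext α
  simp only [exponents, Set.mem_ofPred_eq, key, Set.mem_Ici]
  constructor
  · rintro ⟨-, h⟩
    by_contra hα
    exact P362.not_polyBound α (not_le.mp hα) h
  · intro hα
    obtain ⟨C, -, hC⟩ := P362.Asy.polyBound_mono hα P362.polyBound_four
    exact ⟨by linarith, C, hC⟩

theorem joint : ∃ A : ℝ, ∀ q r : ℕ, 1 ≤ q → q ≤ r → r ≤ q ^ 4 →
    ∃ n : ℕ, 1 ≤ n ∧ ∃ f : (Fin n → Bool) → Bool,
      (q : ℝ) / 2 ^ (A * √(Real.logb 2 q)) ≤ Q f ∧ Q f ≤ q ∧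
      (r : ℝ) / 2 ^ (A * √(Real.logb 2 q)) ≤ R f ∧ D f ≤ r := by
  obtain ⟨A, hA⟩ := P362.H32.joint
  refine ⟨A, fun q r h1 h2 h3 => ?_⟩
  obtain ⟨n, hn, f, h4, h5, h6, t, ht, he⟩ := hA q r h1 h2 h3
  refine ⟨n, hn, f, by rwa [Q_eq hn], by rw [Q_eq hn]; exact_mod_cast h5, by rwa [R_eq],
    Nat.sInf_le ⟨ofTree (P362.Stmt.ofDT t), fun x => ?_⟩⟩
  have := ofTree_spec x (P362.Stmt.ofDT t)
  rw [P362.Stmt.depth_ofDT, P362.Stmt.eval_ofDT] at this
  exact ⟨this.1.trans ht, this.2.trans (he x)⟩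

end Vale.Agent.P362G
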