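import Vale.Agent.P362G46.Back
import Mathlib.Probability.ProbabilityMassFunction.Constructions

/-!
# P362: deterministic and randomized algorithms
-/

open Matrix MeasureTheory
open scoped ComplexOrder

namespace Vale.Agent.P362G

variable {n : ℕ}

/-- The algorithm cut after `T` queries, as a tree. -/
def cut : ℕ → Det n → P362.Stmt.Tree (Fin n)
  | _, .stop b => .leaf b
  | 0, .query _ _ => .leaf false
  | T + 1, .query i next => .node i (cut T (next false)) (cut T (next true))

theorem depth_cut (T : ℕ) : ∀ A : Det n, (cut T A).depth ≤ T := by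
  induction T with
  | zero => intro A; cases A <;> simp [cut, P362.Stmt.Tree.depth]
  | succ T ih => intro A; cases A <;> simp [cut, P362.Stmt.Tree.depth, ih]

theorem eval_cut (x : Fin n → Bool) (T : ℕ) :
    ∀ A : Det n, A.cost x ≤ T → (cut T A).eval x = A.out x := by
  induction T with
  | zero => intro A h; cases A <;> simp_all [cut, P362.Stmt.Tree.eval, Det.out, Det.cost]
  | succ T ih =>
    intro A h
    cases A with
    | stop b => rfl
    | query i next =>
      have h' := ih _ (Nat.le_of_succ_le_succ h)
      simp only [cut, P362.Stmt.Tree.eval, Det.out]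
      cases hx : x i <;> rw [hx] at h' <;> simpa using h'

/-- A tree as an algorithm. -/
def ofTree : P362.Stmt.Tree (Fin n) → Det n
  | .leaf b => .stop b
  | .node i t0 t1 => .query i fun b => if b then ofTree t1 else ofTree t0

theorem ofTree_spec (x : Fin n → Bool) (t : P362.Stmt.Tree (Fin n)) :
    (ofTree t).cost x ≤ t.depth ∧ (ofTree t).out x = t.eval x := by
  induction t with
  | leaf b => exact ⟨le_rfl, rfl⟩
  | node i t0 t1 h0 h1 =>
    simp only [ofTree, Det.cost, Det.out, P362.Stmt.Tree.depth, P362.Stmt.Tree.eval]
    cases x i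
    · exact ⟨Nat.succ_le_succ (h0.1.trans (le_max_left _ _)), h0.2⟩
    · exact ⟨Nat.succ_le_succ (h1.1.trans (le_max_right _ _)), h1.2⟩

/-- A randomized algorithm gives a distribution on the functions computed with `T` queries. -/
theorem exists_pmf {f : (Fin n → Bool) → Bool} {T : ℕ} (h : RandComputes f T) :
    ∃ (p : PMF ((Fin n → Bool) → Bool)) (A : ((Fin n → Bool) → Bool) → Det n),
      (∀ g x, (A g).cost x ≤ T) ∧ ∀ x, 2 / 3 ≤ p.toOuterMeasure {g | (A g).out x = f x} := by
  classical
  obtain ⟨Ω, _, P, A, hP, h⟩ := h
  let ev : Ω → (Fin n → Bool) → Bool := fun ω x => (A ω).out x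
  have hev : Measurable ev := measurable_pi_lambda _ fun x => by
    refine measurable_to_bool ?_
    cases hf : f x
    · convert (h x).2.1.compl using 1
      ext ω
      simp [ev, hf]
    · convert (h x).2.1 using 1
      ext ω
      simp [ev, hf]
  have := Measure.isProbabilityMeasure_map (μ := P) hev.aemeasurable
  refine ⟨(P.map ev).toPMF, fun g => if hg : ∃ ω, ev ω = g then A hg.choose else .stop false,
    fun g x => ?_, fun x => ?_⟩
  · dsimp only
    split_ifs
    exacts [(h x).1 _, Nat.zero_le _]
  · rw [← PMF.toMeasure_apply_eq_toOuterMeasure_apply _ (Set.toFinite _).measurableSet,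
      Measure.toPMF_toMeasure, Measure.map_apply hev (Set.toFinite _).measurableSet]
    refine (h x).2.2.trans (measure_mono fun ω hω => ?_)
    have hg : ∃ ω', ev ω' = ev ω := ⟨ω, rfl⟩
    change Det.out x (if hg : ∃ ω', ev ω' = ev ω then A hg.choose else .stop false) = f x
    rw [dif_pos hg]
    exact (congrFun hg.choose_spec x).trans hω

theorem rand_iff {f : (Fin n → Bool) → Bool} {T : ℕ} :
    RandComputes f T ↔ P362.Stmt.RandComputes f T := by
  classical
  constructor
  · intro h
    obtain ⟨p, A, hA, h⟩ := exists_pmf h
    refine ⟨p.map fun g => cut T (A g), fun t ht => ?_, fun x => ?_⟩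
    · rw [PMF.support_map] at ht
      obtain ⟨g, -, rfl⟩ := ht
      exact depth_cut T _
    · rw [PMF.toOuterMeasure_map_apply]
      convert h x using 2
      ext g
      simp [eval_cut x T _ (hA g x)]
  · rintro ⟨p, hp, h⟩
    let _ : MeasurableSpace (P362.Stmt.Tree (Fin n)) := ⊤
    refine ⟨P362.Stmt.Tree (Fin n), ⊤, p.toMeasure,
      fun t => if t.depth ≤ T then ofTree t else .stop false, inferInstance,
      fun x => ⟨fun t => ?_, trivial, ?_⟩⟩
    · dsimp only
      split_ifs with ht
      exacts [(ofTree_spec x t).1.trans ht, Nat.zero_le _]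
    · rw [PMF.toMeasure_apply_eq_toOuterMeasure_apply _ MeasurableSpace.measurableSet_top]
      refine (h x).trans (p.toOuterMeasure_mono fun t ht => ?_)
      change Det.out x (if t.depth ≤ T then ofTree t else .stop false) = f x
      rw [if_pos (hp t ht.2), (ofTree_spec x t).2]
      exact ht.1

theorem rand_of_det {f : (Fin n → Bool) → Bool} {T : ℕ} (h : DetComputes f T) :
    RandComputes f T := by
  obtain ⟨A, hA⟩ := h
  refine ⟨Unit, ⊤, Measure.dirac (), fun _ => A, inferInstance,
    fun x => ⟨fun _ => (hA x).1, trivial, ?_⟩⟩
  rw [Set.eq_univ_of_forall (s := {_ω : Unit | A.out x = f x}) fun _ => (hA x).2, measure_univ]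
  exact ENNReal.div_le_of_le_mul (by norm_num)

/-- Read the bits of the list. -/
def readAll (f : (Fin n → Bool) → Bool) : List (Fin n) → (Fin n → Bool) → Det n
  | [], y => .stop (f y)
  | i :: l, y => .query i fun b => readAll f l (Function.update y i b)

theorem readAll_spec (f : (Fin n → Bool) → Bool) (x : Fin n → Bool) (l : List (Fin n)) :
    ∀ y, (∀ k, k ∉ l → y k = x k) →
      (readAll f l y).cost x = l.length ∧ (readAll f l y).out x = f x := by
  induction l with
  | nil => intro y h; exact ⟨rfl, congrArg f (funext fun k => h k (by simp))⟩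
  | cons i l ih =>
    intro y h
    have := ih (Function.update y i (x i)) fun k hk => by
      by_cases hki : k = i
      · subst hki; simp
      · rw [Function.update_of_ne hki]
        exact h k (by simp [hki, hk])
    exact ⟨congrArg (· + 1) this.1, this.2⟩

theorem det_n (f : (Fin n → Bool) → Bool) : DetComputes f n :=
  ⟨readAll f (List.finRange n) fun _ => false, fun x => by
    have := readAll_spec f x (List.finRange n) (fun _ => false) (by simp)
    exact ⟨by simp [this.1], this.2⟩⟩

theorem feas_det (A : Det n) : ∀ (T : ℕ) (s : (Fin n → Bool) → ℝ),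
    (∀ x, s x ≠ 0 → A.cost x ≤ T) → Feas T (gram ℂ fun x => (s x : ℂ))
      (fun x => if A.out x then s x ^ 2 else 0) := by
  induction A with
  | stop b =>
    intro T s _
    refine Feas.of_zero T ?_
    cases b
    · exact ⟨0, _, PosSemidef.zero, posSemidef_gram ℂ _, (zero_add _).symm, by simp [Det.out]⟩
    · exact ⟨_, 0, posSemidef_gram ℂ _, PosSemidef.zero, (add_zero _).symm,
        fun x => by simp [Det.out, ← Complex.ofReal_pow]⟩
  | query i next ih =>
    intro T s h
    cases T with
    | zero =>
      obtain rfl : s = fun _ => 0 := funext fun x => by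
        by_contra hx
        simpa [Det.cost] using h x hx
      convert feas_zero (n := n) 0 using 1
      · ext x y; simp
      · simp
    | succ T =>
      have h2 : (0 : ℂ) ≤ 1 / 2 := by norm_num [Complex.le_def]
      have hs := (posSemidef_gram ℂ fun x => (s x : ℂ)).smul h2
      refine ⟨_, fun k => if k = i then (1 / 2 : ℂ) • gram ℂ fun x => (s x : ℂ) else 0, hs,
        fun k => by dsimp only; split_ifs; exacts [hs, PosSemidef.zero], ?_, ?_⟩
      · simp only [Finset.sum_ite_eq', Finset.mem_univ, if_true]
        module
      · have := feas_sum T fun b => ih b T (fun x => if x i = b then s x else 0) fun x hx => by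
          by_cases hb : x i = b
          · subst hb
            exact Nat.le_of_succ_le_succ (h x (by simpa using hx))
          · simp [hb] at hx
        convert this using 1
        · simp only [apply_ite (tw _), tw_zero]
          rw [Finset.sum_eq_single i (fun k _ hk => if_neg hk) (by simp), if_pos rfl]
          ext x y
          cases hx : x i <;> cases hy : y i <;> simp [tw, sg, hx, hy] <;> ring
        · ext x
          cases hx : x i <;> simp [Det.out, hx]

theorem feas_of_rand {f : (Fin n → Bool) → Bool} {T : ℕ} (h : RandComputes f T) :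
    ∃ a, Feas T (ones n) a ∧ Good f a := by
  classical
  obtain ⟨p, A, hA, h⟩ := exists_pmf h
  have hp : ∑ g, (p g).toReal = 1 := by
    rw [← ENNReal.toReal_sum fun g _ => p.apply_ne_top g, ← tsum_fintype (L := .unconditional _),
      p.tsum_coe, ENNReal.toReal_one]
  have hq : ∀ g, √(p g).toReal ^ 2 = (p g).toReal := fun g => Real.sq_sqrt ENNReal.toReal_nonneg
  have := feas_sum T fun g => feas_det (A g) T (fun _ => √(p g).toReal) fun x _ => hA g x
  refine ⟨fun x => ∑ g, if (A g).out x then √(p g).toReal ^ 2 else 0, ?_, fun x => ?_⟩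
  · convert this using 1
    ext x y
    simp only [ones, of_apply, Matrix.sum_apply, gram_apply, inner_self_eq_norm_sq_to_K,
      Complex.norm_real, Real.norm_eq_abs, Complex.coe_algebraMap]
    simp only [← Complex.ofReal_pow, sq_abs, hq, ← Complex.ofReal_sum, hp, Complex.ofReal_one]
  · have h1 : (2 / 3 : ℝ) ≤ ∑ g, if (A g).out x = f x then (p g).toReal else 0 := by
      have h2 := h x
      rw [PMF.toOuterMeasure_apply_fintype] at h2
      have hne : ∀ g, {g | (A g).out x = f x}.indicator p g ≠ ⊤ := fun g =>
        ne_top_of_le_ne_top (p.apply_ne_top g) (Set.indicator_le_self _ _ g)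
      have h3 := ENNReal.toReal_mono (ENNReal.sum_ne_top.mpr fun g _ => hne g) h2
      rw [ENNReal.toReal_sum fun g _ => hne g] at h3
      convert h3 using 1
      · simp
      · refine Finset.sum_congr rfl fun g _ => ?_
        by_cases hg : (A g).out x = f x <;> simp [hg]
    simp only [hq]
    cases hf : f x <;> rw [hf] at h1
    · refine h1.trans (le_of_eq ?_)
      rw [if_neg (by simp), ← hp, ← Finset.sum_sub_distrib]
      refine Finset.sum_congr rfl fun g _ => ?_
      cases (A g).out x <;> simp
    · simpa using h1

theorem quant_of_rand {f : (Fin n → Bool) → Bool} {T : ℕ} (hn : 1 ≤ n) (h : RandComputes f T) :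
    QuantComputes f T :=
  (feas_of_rand h).elim fun _ ha => computes_of_std (std_of_feas hn ha.1 ha.2)

end Vale.Agent.P362G
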