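import Vale.Agent.P362G46.Gen
import Vale.Agent.P362.Stmt

/-!
# P362: feasible Gram matrices are realised in the unitary model, and back
-/

open Matrix
open scoped ComplexOrder MatrixOrder

namespace Vale.Agent.P362G

variable {n : ℕ}

/-- The run from an arbitrary vector. -/
noncomputable def run' {β : Type} [Fintype β] (O : Matrix β β ℂ) (U : ℕ → Matrix β β ℂ)
    (v : β → ℂ) : ℕ → β → ℂ
  | 0 => U 0 *ᵥ v
  | t + 1 => U (t + 1) *ᵥ (O *ᵥ run' O U v t)

theorem run_eq {β : Type} [Fintype β] [DecidableEq β] (O : Matrix β β ℂ) (U : ℕ → Matrix β β ℂ)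
    (s : β) (t : ℕ) : P362.Stmt.run O U s t = run' O U (Pi.single s 1) t := by
  induction t with
  | zero => rfl
  | succ t ih => simp only [P362.Stmt.run, run', ih]

theorem run'_shift {β : Type} [Fintype β] (O : Matrix β β ℂ) (U : ℕ → Matrix β β ℂ)
    (v : β → ℂ) (t : ℕ) :
    run' O U v (t + 1) = run' O (fun k => U (k + 1)) (O *ᵥ (U 0 *ᵥ v)) t := by
  induction t with
  | zero => rfl
  | succ t ih => rw [run', ih]; rfl

theorem oracle_mulVec (m : ℕ) (x : Fin n → Bool) (v : Fin n × Bool × Fin m → ℂ)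
    (w : Fin n × Bool × Fin m) :
    (P362.Stmt.oracle m x *ᵥ v) w = v (w.1, xor w.2.1 (x w.1), w.2.2) := by
  obtain ⟨i, b, z⟩ := w
  simp only [mulVec, dotProduct, P362.Stmt.oracle]
  rw [Finset.sum_eq_single (i, xor b (x i), z)]
  · simp
  · rintro ⟨k, c, y⟩ _ h
    rw [if_neg, zero_mul]
    intro h'
    simp only [Prod.mk.injEq] at h'
    obtain ⟨rfl, rfl, rfl⟩ := h'
    simp at h
  · simp

theorem exists_root {m : ℕ} (e : (Fin n → Bool) ≃ Fin m) {A : Mat n} (hA : A.PosSemidef) :
    ∃ B : Fin m → (Fin n → Bool) → ℂ, ∀ x y, ∑ z, star (B z x) * B z y = A x y := by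
  obtain ⟨B, rfl⟩ := CStarAlgebra.nonneg_iff_eq_star_mul_self.mp hA.nonneg
  refine ⟨fun z => B (e.symm z), fun x y => ?_⟩
  rw [star_eq_conjTranspose, mul_apply, ← e.symm.sum_comp]
  rfl

theorem sg_xor (a b : Bool) : sg (xor a b) = sg a * sg b := by
  cases a <;> cases b <;> simp [sg]

theorem star_sg (a : Bool) : star (sg a) = sg a := by cases a <;> simp [sg]

theorem realise {m : ℕ} (e : (Fin n → Bool) ≃ Fin m) (i0 : Fin n) (T : ℕ) :
    ∀ (V : Matrix (Fin n × Bool × Fin m) (Fin n → Bool) ℂ) (a : (Fin n → Bool) → ℝ),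
      Feas T (Vᴴ * V) a → ∃ U : ℕ → Matrix (Fin n × Bool × Fin m) (Fin n × Bool × Fin m) ℂ,
        (∀ t, U t ∈ unitaryGroup (Fin n × Bool × Fin m) ℂ) ∧ ∀ x c,
          (∑ w, if w.2.1 = c then ‖run' (P362.Stmt.oracle m x) U (fun w => V w x) T w‖ ^ 2
            else 0) = if c then a x else ((Vᴴ * V) x x).re - a x := by
  have hz : ∀ z : ℂ, star z * z = ((‖z‖ ^ 2 : ℝ) : ℂ) := fun z => by
    rw [Complex.star_def, Complex.conj_mul', Complex.ofReal_pow]
  have hcol : ∀ (U : Matrix (Fin n × Bool × Fin m) (Fin n × Bool × Fin m) ℂ)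
      (V : Matrix (Fin n × Bool × Fin m) (Fin n → Bool) ℂ) x,
      U *ᵥ (fun w => V w x) = fun w => (U * V) w x := fun U V x => rfl
  induction T with
  | zero =>
    rintro V a ⟨A, R, hA, hR, hG, ha⟩
    obtain ⟨B, hB⟩ := exists_root e hA
    obtain ⟨C, hC⟩ := exists_root e hR
    obtain ⟨U, hU, hV⟩ := exists_unitary V (of fun w x =>
      if w.1 = i0 then (if w.2.1 then B w.2.2 x else C w.2.2 x) else 0) (by
        rw [hG]
        ext x y
        simp [mul_apply, Fintype.sum_prod_type, ← hB, ← hC, apply_ite (starRingEnd ℂ), ite_mul])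
    refine ⟨fun _ => U, fun _ => hU, fun x c => ?_⟩
    have h1 : ∑ z, ‖B z x‖ ^ 2 = a x := by
      have := (hB x x).trans (ha x)
      simp only [hz] at this
      exact_mod_cast this
    have h2 : ∑ z, ‖C z x‖ ^ 2 = (R x x).re := by
      rw [← hC, Complex.re_sum]
      simp only [hz, Complex.ofReal_re]
    simp only [run', hcol, hV, hG]
    cases c <;>
      simp [Fintype.sum_prod_type, apply_ite (fun z : ℂ => ‖z‖ ^ 2), h1, h2, ha]
  | succ T ih =>
    rintro V a ⟨P, M, hP, hM, hG, ha⟩
    have h2 : (0 : ℂ) ≤ 1 / 2 := by norm_num [Complex.le_def]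
    obtain ⟨B, hB⟩ := exists_root e (hP.smul h2)
    choose C hC using fun i => exists_root e ((hM i).smul h2)
    have key : ∀ s : Fin n → (Fin n → Bool) → Bool, ∀ x y,
        ∑ w : Fin n × Bool × Fin m, star ((if w.1 = i0 then B w.2.2 x else 0) +
          sg (xor w.2.1 (s w.1 x)) * C w.1 w.2.2 x) * ((if w.1 = i0 then B w.2.2 y else 0) +
          sg (xor w.2.1 (s w.1 y)) * C w.1 w.2.2 y) =
        P x y + ∑ i, sg (s i x) * sg (s i y) * M i x y := fun s x y => by
      have e1 : P x y = ∑ i, if i = i0 then 2 * ∑ z, star (B z x) * B z y else 0 := by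
        rw [hB]
        simp
      have e2 : ∀ i, M i x y = 2 * ∑ z, star (C i z x) * C i z y := fun i => by
        rw [hC]
        simp
      rw [e1, ← Finset.sum_add_distrib, Fintype.sum_prod_type]
      refine Finset.sum_congr rfl fun i _ => ?_
      rw [Fintype.sum_prod_type, Fintype.sum_bool, ← Finset.sum_add_distrib, e2]
      simp only [sg_xor, star_add, star_mul', star_sg, Finset.mul_sum]
      split_ifs
      · rw [← Finset.sum_add_distrib]
        refine Finset.sum_congr rfl fun z _ => ?_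
        simp only [sg, if_true, Bool.false_eq_true, if_false]
        ring
      · rw [zero_add]
        refine Finset.sum_congr rfl fun z _ => ?_
        simp only [sg, if_true, Bool.false_eq_true, if_false, star_zero]
        ring
    obtain ⟨U, hU, hV⟩ := exists_unitary V (of fun w x =>
      (if w.1 = i0 then B w.2.2 x else 0) + sg (xor w.2.1 false) * C w.1 w.2.2 x) (by
        rw [hG]
        ext x y
        have := key (fun _ _ => false) x y
        simp only [mul_apply, conjTranspose_apply, of_apply]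
        rw [this]
        simp [sg, Matrix.sum_apply])
    let V' : Matrix (Fin n × Bool × Fin m) (Fin n → Bool) ℂ := of fun w x =>
      (if w.1 = i0 then B w.2.2 x else 0) + sg (xor w.2.1 (x w.1)) * C w.1 w.2.2 x
    have hV' : V'ᴴ * V' = P + ∑ i, tw i (M i) := by
      ext x y
      have := key (fun i x => x i) x y
      simp only [mul_apply, conjTranspose_apply, of_apply, V']
      rw [this]
      simp [tw, Matrix.sum_apply]
    obtain ⟨U', hU', h⟩ := ih V' a (hV' ▸ ha)
    refine ⟨fun t => Nat.casesOn t U U', fun t => by cases t; exacts [hU, hU' _], fun x c => ?_⟩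
    have h3 : P362.Stmt.oracle m x *ᵥ (U *ᵥ fun w => V w x) = fun w => V' w x := by
      ext w
      rw [oracle_mulVec, hcol, hV]
      simp [V']
    have h4 : (V'ᴴ * V') x x = (Vᴴ * V) x x := by
      have : ∀ b, sg b * sg b = 1 := fun b => by cases b <;> simp [sg]
      rw [hV', hG]
      simp [tw, Matrix.sum_apply, this]
    rw [run'_shift, ← h4, ← h x c, ← h3]
    rfl

theorem std_of_feas {f : (Fin n → Bool) → Bool} {T : ℕ} (hn : 1 ≤ n)
    {a : (Fin n → Bool) → ℝ} (h : Feas T (ones n) a) (hg : Good f a) :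
    P362.Stmt.QuantComputes f T := by
  let e := Fintype.equivFin (Fin n → Bool)
  let s : Fin n × Bool × Fin (Fintype.card (Fin n → Bool)) := (⟨0, hn⟩, false, e fun _ => false)
  let V : Matrix (Fin n × Bool × Fin (Fintype.card (Fin n → Bool))) (Fin n → Bool) ℂ :=
    of fun w _ => (Pi.single s 1 : _ → ℂ) w
  have hV : Vᴴ * V = ones n := by
    ext x y
    simp [V, mul_apply, ones, Pi.single_apply]
  obtain ⟨U, hU, hr⟩ := realise e ⟨0, hn⟩ T V a (hV ▸ h)
  refine ⟨_, U, s, fun w => w.2.1, hU, fun x => ?_⟩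
  have := hr x (f x)
  rw [hV] at this
  rw [run_eq]
  refine le_of_le_of_eq (hg x) (Eq.trans ?_ this.symm)
  simp [ones]

end Vale.Agent.P362G
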